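import Mathlib

/-!
# P214, block POS: the abstract covering step

Two measures `μ`, `e`; every point of `S` has a ball whose 5-fold enlargement has `μ`-measure at
most `K` times the `e`-measure of the ball.
-/

open Set Filter Topology MeasureTheory Metric
open scoped ENNReal

set_option linter.all false

namespace Vale.Agent.P214.POS

variable {E : Type*} [NormedAddCommGroup E] [NormedSpace ℝ E] [FiniteDimensional ℝ E]
  [MeasurableSpace E] [BorelSpace E]

/-- countable disjoint subfamily -/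
lemma vitali_count (S : Set E) (t : E → ℝ) {R : ℝ} (ht0 : ∀ x ∈ S, 0 < t x)
    (htR : ∀ x ∈ S, t x ≤ R) :
    ∃ u ⊆ S, u.Countable ∧ (u.PairwiseDisjoint fun x => closedBall x (t x)) ∧
      S ⊆ ⋃ x ∈ u, closedBall x (5 * t x) := by
  obtain ⟨u, huS, hd, hc⟩ := Vitali.exists_disjoint_subfamily_covering_enlargement_closedBall S
    (fun x => x) t R htR 5 (by norm_num)
  have hcount : u.Countable := by
    refine hd.countable_of_nonempty_interior fun x hx => ?_
    refine ⟨x, ball_subset_interior_closedBall (mem_ball_self (ht0 x (huS hx)))⟩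
  refine ⟨u, huS, hcount, hd, fun x hx => ?_⟩
  obtain ⟨b, hb, hsub⟩ := hc x hx
  exact mem_iUnion₂.2 ⟨b, hb, hsub (mem_closedBall_self (ht0 x hx).le)⟩

/-- **the covering step** -/
theorem cover_step {μ e : Measure E} {S : Set E} {t : E → ℝ} {ρ th : E → ℝ≥0∞}
    {R : ℝ} {A K κ : ℝ≥0∞} (hA : A ≠ ⊤) (ht0 : ∀ x ∈ S, 0 < t x) (htR : ∀ x ∈ S, t x ≤ R)
    (h2 : ∀ x ∈ S, μ (closedBall x (5 * t x)) ≤ K * e (closedBall x (t x)))
    (h3 : ∀ x ∈ S, ∀ y ∈ closedBall x (5 * t x), ∀ y' ∈ closedBall x (t x), ρ y ≤ A * ρ y')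
    (h4 : ∀ x ∈ S, ∀ y ∈ closedBall x (t x), κ ≤ th y) :
    ∃ B : Set E, MeasurableSet B ∧ S ⊆ B ∧
      κ * ∫⁻ y in B, ρ y ∂μ ≤ A * K * ∫⁻ y, ρ y * th y ∂e := by
  obtain ⟨u, huS, hcount, hd, hcov⟩ := vitali_count S t ht0 htR
  refine ⟨⋃ x ∈ u, closedBall x (5 * t x),
    MeasurableSet.biUnion hcount fun x _ => isClosed_closedBall.measurableSet, hcov, ?_⟩
  have hone : ∀ x ∈ u, κ * ∫⁻ y in closedBall x (5 * t x), ρ y ∂μ ≤
      A * K * ∫⁻ y in closedBall x (t x), ρ y * th y ∂e := by
    intro x hx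
    have hxS := huS hx
    -- bound of the sup on the large ball
    set s : ℝ≥0∞ := ⨆ y ∈ closedBall x (5 * t x), ρ y with hs
    have e1 : ∫⁻ y in closedBall x (5 * t x), ρ y ∂μ ≤ s * μ (closedBall x (5 * t x)) := by
      calc ∫⁻ y in closedBall x (5 * t x), ρ y ∂μ ≤ ∫⁻ y in closedBall x (5 * t x), s ∂μ := by
            refine setLIntegral_mono' isClosed_closedBall.measurableSet fun y hy => ?_
            exact le_iSup₂ (f := fun y (_ : y ∈ closedBall x (5 * t x)) => ρ y) y hy
        _ = s * μ (closedBall x (5 * t x)) := by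
            rw [setLIntegral_const]
    have e2 : ∀ y' ∈ closedBall x (t x), s ≤ A * ρ y' := by
      intro y' hy'
      exact iSup₂_le fun y hy => h3 x hxS y hy y' hy'
    have e3 : κ * s * e (closedBall x (t x)) ≤ ∫⁻ y in closedBall x (t x), A * (ρ y * th y) ∂e := by
      rw [← setLIntegral_const]
      refine setLIntegral_mono' isClosed_closedBall.measurableSet fun y hy => ?_
      calc κ * s ≤ th y * (A * ρ y) := mul_le_mul' (h4 x hxS y hy) (e2 y hy)
        _ = A * (ρ y * th y) := by ring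
    calc κ * ∫⁻ y in closedBall x (5 * t x), ρ y ∂μ
        ≤ κ * (s * μ (closedBall x (5 * t x))) := by gcongr
      _ ≤ κ * (s * (K * e (closedBall x (t x)))) := by
          gcongr
          exact h2 x hxS
      _ = K * (κ * s * e (closedBall x (t x))) := by ring
      _ ≤ K * ∫⁻ y in closedBall x (t x), A * (ρ y * th y) ∂e := by gcongr
      _ ≤ A * K * ∫⁻ y in closedBall x (t x), ρ y * th y ∂e := by
          rw [lintegral_const_mul' A _ hA]
          exact le_of_eq (by ring)
  calc κ * ∫⁻ y in ⋃ x ∈ u, closedBall x (5 * t x), ρ y ∂μ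
      ≤ κ * ∑' x : u, ∫⁻ y in closedBall (x : E) (5 * t x), ρ y ∂μ := by
        gcongr
        haveI := hcount.to_subtype
        rw [biUnion_eq_iUnion]
        exact lintegral_iUnion_le _ _
    _ = ∑' x : u, κ * ∫⁻ y in closedBall (x : E) (5 * t x), ρ y ∂μ := ENNReal.tsum_mul_left.symm
    _ ≤ ∑' x : u, A * K * ∫⁻ y in closedBall (x : E) (t x), ρ y * th y ∂e :=
        ENNReal.tsum_le_tsum fun x => hone x x.2
    _ = A * K * ∑' x : u, ∫⁻ y in closedBall (x : E) (t x), ρ y * th y ∂e := ENNReal.tsum_mul_left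
    _ ≤ A * K * ∫⁻ y, ρ y * th y ∂e := by
        gcongr
        haveI := hcount.to_subtype
        rw [← lintegral_iUnion (fun x : u => isClosed_closedBall.measurableSet)
          (fun a b hab => hd a.2 b.2 fun h => hab (Subtype.ext h))]
        exact setLIntegral_le_lintegral _ _

end Vale.Agent.P214.POS
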